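import Vale.Agent.P182G84.Br2
import Vale.Agent.P182.H55.AllM
import Vale.Agent.P182.H810.GlueAll

/-!
# P182: the saturation property of the groups `Spin(2n)`

`Spin n` is the spin group of the split quadratic form on `ℂ^(2n)`, and `IsV lam ρ` says that `ρ`
is a finite-dimensional irreducible rational representation of it with highest weight `lam`.
For `n ≥ 2` such a representation exists for each dominant weight and is unique up to isomorphism,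
and for dominant `lam`, `mu`, `nu` with sum in the root lattice, a nonzero invariant of the group in
`V(N lam) ⊗ V(N mu) ⊗ V(N nu)` for one `N ≥ 1` gives one in `V(M lam) ⊗ V(M mu) ⊗ V(M nu)` for
every `M ≥ 1`, in particular for `M = 1`.
-/

namespace Vale.Agent.Results.P182.ASpinGroup

open Vale.Agent.P182 Vale.Agent.P182S

universe u₁ u₂ u₃ u₄ u₅ u₆

/-- **The group `Spin(2n)` has the saturation property for every `n ≥ 2`.** -/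
theorem result : ∀ n : ℕ, 2 ≤ n → Contains (Spin n) (e (n := n)) f ∧
    (∀ lam : Fin n → ℚ, IsDominant lam →
      (∃ (V : Type) (_ : AddCommGroup V) (_ : Module ℂ V) (ρ : Rp n V), IsV lam ρ) ∧
      ∀ (V : Type u₁) (W : Type u₂) [AddCommGroup V] [Module ℂ V] [AddCommGroup W] [Module ℂ W]
        (ρ : Rp n V) (σ : Rp n W), IsV lam ρ → IsV lam σ → Nonempty (ρ.Equiv σ)) ∧
    ∀ lam mu nu : Fin n → ℚ, IsDominant lam → IsDominant mu → IsDominant nu →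
      InRootLattice (lam + mu + nu) → ∀ N M : ℕ, 1 ≤ N → 1 ≤ M →
      ∀ (W₁ : Type u₁) (W₂ : Type u₂) (W₃ : Type u₃) (V₁ : Type u₄) (V₂ : Type u₅) (V₃ : Type u₆)
      [AddCommGroup W₁] [Module ℂ W₁] [AddCommGroup W₂] [Module ℂ W₂] [AddCommGroup W₃]
      [Module ℂ W₃] [AddCommGroup V₁] [Module ℂ V₁] [AddCommGroup V₂] [Module ℂ V₂]
      [AddCommGroup V₃] [Module ℂ V₃] (σ₁ : Rp n W₁) (σ₂ : Rp n W₂) (σ₃ : Rp n W₃)
      (ρ₁ : Rp n V₁) (ρ₂ : Rp n V₂) (ρ₃ : Rp n V₃),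
      IsV (fun i => N * lam i) σ₁ → IsV (fun i => N * mu i) σ₂ → IsV (fun i => N * nu i) σ₃ →
      IsV (fun i => M * lam i) ρ₁ → IsV (fun i => M * mu i) ρ₂ → IsV (fun i => M * nu i) ρ₃ →
      HasInv σ₁ σ₂ σ₃ → HasInv ρ₁ ρ₂ ρ₃ := by
  intro n hn
  refine ⟨contains n, fun lam hl => ⟨?_, fun _ _ _ _ _ _ _ _ h h' =>
    P182G.uniq hn ((isV_iff _ _).1 h) ((isV_iff _ _).1 h')⟩, ?_⟩
  · obtain ⟨V, a, b, ρ, h⟩ := P182G.exists_V hl
    exact ⟨V, a, b, ρ, (isV_iff _ _).2 h⟩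
  intro lam mu nu hlam hmu hnu hQ N M hN hM W₁ W₂ W₃ V₁ V₂ V₃ _ _ _ _ _ _ _ _ _ _ _ _
    σ₁ σ₂ σ₃ ρ₁ ρ₂ ρ₃ s₁ s₂ s₃ r₁ r₂ r₃ h
  obtain ⟨_, _, _, _, a₁, hW₁⟩ := ((isV_iff _ _).1 s₁).lie hn
  obtain ⟨_, _, _, _, a₂, hW₂⟩ := ((isV_iff _ _).1 s₂).lie hn
  obtain ⟨_, _, _, _, a₃, hW₃⟩ := ((isV_iff _ _).1 s₃).lie hn
  obtain ⟨_, _, _, _, b₁, hV₁⟩ := ((isV_iff _ _).1 r₁).lie hn
  obtain ⟨_, _, _, _, b₂, hV₂⟩ := ((isV_iff _ _).1 r₂).lie hn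
  obtain ⟨_, _, _, _, b₃, hV₃⟩ := ((isV_iff _ _).1 r₃).lie hn
  exact (P182G.inv_iff hn b₁ b₂ b₃).2 (H55.allMultiples_of_glueAll H810.glueAll' hn hlam hmu hnu
    hQ hN hM hW₁ hW₂ hW₃ hV₁ hV₂ hV₃ ((P182G.inv_iff hn a₁ a₂ a₃).1 h))

end Vale.Agent.Results.P182.ASpinGroup
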